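import Vale.Agent.P057IV.Plan

/-!
A dense set contains many parallelograms with narrow sides.
-/

set_option linter.unusedSectionVars false

open Matrix Finset
open scoped Real
open Vale.Agent.P267.H775 Vale.Agent.P057G Vale.Agent.P057MA Vale.Agent.P057HU
open Vale.Agent.P057T1 Vale.Agent.P057IV
open Vale.Agent.P057PI (dup sg sc_sg Sc)

namespace Vale.Agent.P057QP

noncomputable section

variable {V ι : Type} [Fintype V] [DecidableEq V] [Fintype ι] [DecidableEq ι] {S : MS V ι}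

theorem mem_a4 {A : Finset V} {v : V} {c : Fin 4} : (v, c) ∈ a4 A ↔ v ∈ A ∧ c = 0 := by
  simp only [a4, mem_image, Prod.mk.injEq]
  exact ⟨fun ⟨_, h1, h2, h3⟩ => ⟨h2 ▸ h1, h3.symm⟩, fun ⟨h1, h2⟩ => ⟨v, h1, rfl, h2.symm⟩⟩

/-- the faces of the copies `T` of the class `b` over the other classes -/
theorem mem_fce_cop {B : Finset V} {b : V} (hb : b ∈ B) (lam : ℝ) {T : Finset (Fin 4)}
    (h0 : 0 ∈ T) {i : BI S.fc (0 : Fin 4)} :
    i ∈ fce (jt S b lam) (a4 (B.erase b) ∪ T.image fun c => (b, c)) ↔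
      ∃ c ∈ T, ∃ j ∈ fce S B, cq S b c j = i := by
  rw [mem_fce]
  change (blow S 0).fc i ⊆ _ ↔ _
  constructor
  · intro h
    have key : ∀ v ∈ S.fc i.1.1, (v ≠ b → v ∈ B ∧ i.1.2 v = 0) ∧ (v = b → i.1.2 v ∈ T) :=
      fun v hv => by
        rcases mem_union.1 (h (mem_fc_blow.2 ⟨hv, rfl⟩ : (v, i.1.2 v) ∈ _)) with a | a
        · obtain ⟨a1, a2⟩ := mem_a4.1 a
          exact ⟨fun _ => ⟨(mem_erase.1 a1).2, a2⟩, fun e => absurd e (mem_erase.1 a1).1⟩
        · obtain ⟨c, hc, e⟩ := mem_image.1 a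
          obtain ⟨e1, e2⟩ := Prod.ext_iff.1 e
          exact ⟨fun x => absurd e1.symm x, fun _ => by
            have e3 : c = i.1.2 v := e2
            exact e3 ▸ hc⟩
    refine ⟨i.1.2 b, ?_, i.1.1, mem_fce.2 fun v hv => ?_, ?_⟩
    · by_cases hi : b ∈ S.fc i.1.1
      · exact (key b hi).2 rfl
      · rw [i.2 b hi]; exact h0
    · by_cases e : v = b
      · exact e ▸ hb
      · exact ((key v hv).1 e).1
    · refine (cp_congr fun v hv => ?_).trans (cp_self i)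
      by_cases e : v = b
      · subst e; simp [ch]
      · simp only [ch, Function.update_of_ne e, ((key v hv).1 e).2]
  · rintro ⟨c, hc, j, hj, rfl⟩ ⟨v, c'⟩ hu
    obtain ⟨h1, h3⟩ := mem_fc_blow.1 hu
    have h2 : ch b c v = c' := (cp_snd (c0 := (0 : Fin 4)) (ch b c) (k := j) h1).symm.trans h3
    by_cases e : v = b
    · subst e
      refine mem_union_right _ (mem_image.2 ⟨c, hc, ?_⟩)
      simp only [ch, Function.update_self] at h2
      rw [h2]
    · refine mem_union_left _ (mem_a4.2 ⟨mem_erase.2 ⟨e, mem_fce.1 hj h1⟩, ?_⟩)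
      simp only [ch, Function.update_of_ne e] at h2
      exact h2.symm

theorem fce_b4 {B : Finset V} {b : V} (hb : b ∈ B) (lam : ℝ) :
    fce (jt S b lam) (b4 B b) = q4 S (fce S B) b := by
  ext i
  rw [b4, mem_fce_cop hb lam (mem_univ _), mem_q4]
  simp only [mem_univ, true_and]

theorem mem_fce_b2 {B : Finset V} {b : V} (hb : b ∈ B) (lam : ℝ) {i : BI S.fc (0 : Fin 4)} :
    i ∈ fce (jt S b lam) (b2 B b) ↔
      ∃ j ∈ fce S B, cq S b 0 j = i ∨ cq S b 2 j = i := by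
  have e : b2 B b = a4 (B.erase b) ∪ ({0, 2} : Finset (Fin 4)).image fun c => (b, c) := by
    simp [b2]
  rw [e, mem_fce_cop hb lam (by simp)]
  simp only [mem_insert, mem_singleton]
  constructor
  · rintro ⟨c, rfl | rfl, j, hj, h⟩
    exacts [⟨j, hj, Or.inl h⟩, ⟨j, hj, Or.inr h⟩]
  · rintro ⟨j, hj, h | h⟩
    exacts [⟨0, Or.inl rfl, j, hj, h⟩, ⟨2, Or.inr rfl, j, hj, h⟩]

theorem one_le_sig {lam : ℝ} (hl : 1 ≤ lam) (c : Fin 4) :
    1 ≤ (![1, 1, √lam, √lam] : Fin 4 → ℝ) c := by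
  have := Real.one_le_sqrt.2 hl
  fin_cases c <;> simp [this]

theorem sc_jt (r : Finset ι) (b : V) {lam : ℝ} (hl : 1 ≤ lam) :
    Sc S 0 r b (sg S 0 b ![1, 1, √lam, √lam]) ![1, 1, √lam, √lam] := sc_sg r b (one_le_sig hl)

theorem ok_jt (h : S.Ok) (b : V) {lam : ℝ} (hl : 1 ≤ lam) : (jt S b lam).Ok :=
  (sc_jt ∅ b hl).ok h

theorem cen_jt (hc : S.Cen) (b : V) (lam : ℝ) : (jt S b lam).Cen := P057PI.cen_dup hc _

theorem pr_asm {r : Finset ι} (w : V) (y : ι → ℤ) (x : Fin 4 → ↥(r ∩ S.st w) → ℤ) (a c : Fin 4)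
    {j : ι} (hj : j ∈ r) :
    toR (put (r ∩ S.st w) (x a + x c) y) j = pr S w a c (toR (asm S r w y x)) j := by
  by_cases h : j ∈ S.st w
  · have h1 := mem_inter.2 ⟨hj, h⟩
    rw [pr, mix_pos _ _ h, toR_apply, toR_apply, toR_apply, asm_cq w y x a hj, asm_cq w y x c hj,
      put_pos _ _ h1, put_pos _ _ h1, put_pos _ _ h1, Pi.add_apply, Int.cast_add]
  · have h1 : j ∉ r ∩ S.st w := fun a => h (mem_inter.1 a).2
    rw [pr, mix_neg _ _ h, Function.comp, toR_apply, toR_apply, asm_cq w y x 0 hj,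
      put_neg _ _ h1, put_neg _ _ h1]

theorem ind_mul_le {p q p' q' : Prop} (a : p → p') (b : q → q') :
    ind p * ind q ≤ ind (p' ∧ q') := by
  by_cases hp : p
  · rw [ind_pos hp, one_mul]; exact ind_mono fun x => ⟨a hp, b x⟩
  · rw [ind_neg hp, zero_mul]; exact ind_nonneg _

theorem abs_th_mul {P : Type*} [Fintype P] [DecidableEq P] {H : Matrix P P ℝ} (hH : H.PosDef)
    {F : (P → ℤ) → ℝ} (hF : ∀ x, |F x| ≤ 1) :
    |∑' t, gs H (toR t - 0) * F t| ≤ (∑' t : P → ℤ, gs H (toR t - 0)) * 1 :=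
  (wt_gs hH 0).abs_le hF

theorem nest_mono {P : Type*} [Fintype P] [DecidableEq P] {H : Matrix P P ℝ} (hH : H.PosDef)
    {lam : ℝ} (hl : 0 < lam) {f g : (Fin 4 → P → ℤ) → ℝ} (hf : ∀ x, |f x| ≤ 1)
    (hg : ∀ x, |g x| ≤ 1) (e : ∀ x, f x ≤ g x) : nest H lam f ≤ nest H lam g := by
  have hL : (lam • H).PosDef := hH.smul hl
  have hw := ((wt_gs0 hL).prod (wt_gs0 hL)).prod (wt_gs hH 0)
  refine Summable.tsum_le_tsum (fun r => mul_le_mul_of_nonneg_left ?_ (hw.1 r))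
    (hw.summ fun r => abs_th_mul hH fun _ => hf _) (hw.summ fun r => abs_th_mul hH fun _ => hg _)
  exact Summable.tsum_le_tsum (fun t => mul_le_mul_of_nonneg_left (e _) (gs_pos _ _).le)
    ((wt_gs hH 0).summ fun _ => hf _) ((wt_gs hH 0).summ fun _ => hg _)

/-- parallelograms in one fine fibre -/
theorem quad_fib {P : Type*} [Fintype P] [DecidableEq P] {H : Matrix P P ℝ} (hH : H.PosDef)
    {lam β : ℝ} (hl : 1 ≤ lam) (hd : (Fintype.card P : ℝ) ≤ lam) (hβ : 0 ≤ β)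
    (hf : th (lam • H)⁻¹ 0 ≤ 2) (U : (P → ℤ) → Prop)
    (hw : β * vol H ≤ ∑' x, gs H (toR x - 0) * ind (U x)) :
    β ^ 4 / 256 * (vol H ^ 2 * vol (lam • H) ^ 2) ≤ nest H lam fun x =>
      ind (U (x 0 + x 2)) * ind (U (x 0 + x 3)) * (ind (U (x 1 + x 2)) * ind (U (x 1 + x 3))) := by
  have hL : (lam • H).PosDef := hH.smul (by linarith)
  have h1 := quad_count hH (by linarith) hd hβ 0 (fun x => ind (U x)) (fun _ => ind_nonneg _)
    (fun _ => ind_le _) hw
  have p1 := vol_pos hH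
  have p2 := vol_pos hL
  have f1 := (th_inv_smul hH one_pos hl).trans hf
  rw [one_smul] at f1
  have a1 : th H 0 ≤ 2 * vol H := by
    rw [th_zero_eq hH, mul_comm]; exact mul_le_mul_of_nonneg_right f1 p1.le
  have a2 : th (lam • H) 0 ≤ 2 * vol (lam • H) := by
    rw [th_zero_eq hL, mul_comm]; exact mul_le_mul_of_nonneg_right hf p2.le
  have n0 := nest_nonneg H lam (g := fun x => ind (U (x 0 + x 2)) * ind (U (x 0 + x 3)) *
    (ind (U (x 1 + x 2)) * ind (U (x 1 + x 3)))) fun _ =>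
      mul_nonneg (mul_nonneg (ind_nonneg _) (ind_nonneg _))
        (mul_nonneg (ind_nonneg _) (ind_nonneg _))
  have h2 : (β * vol H * vol (lam • H) / 2) ^ 4 ≤ (2 * vol H) ^ 2 * (2 * vol (lam • H)) ^ 2 *
      nest H lam fun x => ind (U (x 0 + x 2)) * ind (U (x 0 + x 3)) *
        (ind (U (x 1 + x 2)) * ind (U (x 1 + x 3))) := by
    refine h1.trans (mul_le_mul_of_nonneg_right ?_ n0)
    have := th_nonneg H 0
    have := th_nonneg (lam • H) 0
    gcongr
  refine le_of_mul_le_mul_left (le_of_eq_of_le ?_ h2) (by positivity)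
  ring

/-- the count of parallelograms -/
theorem quad_sum (h : S.Ok) (hc : S.Cen) {r : Finset ι} (hr : Cls S r) (w : V) {lam β η : ℝ}
    (hl : 1 ≤ lam) (hd : (Fintype.card ι : ℝ) ≤ lam) (hβ : 0 ≤ β) (hβ1 : β ≤ 1)
    (hη : 12 * η ≤ β) (hm : (nar S √lam).mass r ≤ 1 + η) {U : (ι → ℝ) → Prop} (hU : OnP r U)
    (hE : β * vl S.G r ≤ ∑' y, S.wt r y * ind (U (toR y))) :
    β ^ 5 / 2 ^ 14 * vl (jt S w lam).G (q4 S r w) ≤ ∑' Y, (jt S w lam).wt (q4 S r w) Y *
      ind (U (pr S w 0 2 (toR Y)) ∧ U (pr S w 0 3 (toR Y)) ∧ U (pr S w 1 2 (toR Y)) ∧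
        U (pr S w 1 3 (toR Y))) := by
  have hq := Real.one_le_sqrt.2 hl
  have hs := sc_jt (S := S) r w hl
  have hm1 := mass_nar_mono h hc one_pos hq r
  rw [nar_one] at hm1
  have d1 := dense_fib h hc hr w hβ hβ1 (hm1.trans hm) hE
  obtain ⟨b1, hb1, s1⟩ := fine_sum h hc (hr.sat h) w hq hm
  rw [Real.sq_sqrt (by linarith)] at s1
  obtain ⟨b, hb, s2⟩ := four_sum h hc hr w hs.fc hs.one (lam := lam) (by linarith) hs.st hs.out
    (g := fun Y => ind (U (pr S w 0 2 (toR Y)) ∧ U (pr S w 0 3 (toR Y)) ∧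
      U (pr S w 1 2 (toR Y)) ∧ U (pr S w 1 3 (toR Y)))) (fun _ => ind_nonneg _) fun _ => abs_ind _
  have h4 := (four_split h r w hs.fc hs.one hs.pos hs.st hs.out).2
  simp only [Fin.prod_univ_four, cons_val_zero, cons_val_one, Matrix.cons_val, one_pow, one_smul,
    Real.sq_sqrt (show (0 : ℝ) ≤ lam by linarith)] at h4
  have p0 := vl_pos h.pd (r \ S.st w)
  set A := vl (gsc (blow S 0).G (sg S 0 w ![1, 1, √lam, √lam])) (q4 S r w) with hA
  have pA : 0 < A := vl_pos (hs.ok h).pd _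
  have h5 : ∀ y, vol (S.fg r w y) ^ 2 * vol (lam • S.fg r w y) ^ 2 = A / vl S.G (r \ S.st w) :=
    fun y => by rw [h4 y]; field_simp
  have s3 := ((h.summable_re (r \ S.st w) (f := fun y => ind (Fib S r w (fun y => U (toR y))
    (β / 2) y)) fun _ => abs_ind _).hasSum.sub s1).mul_left
      ((β / 2) ^ 4 / 256 * (A / vl S.G (r \ S.st w)))
  refine le_trans ?_ ((hasSum_le (fun y => ?_) s3 s2).trans hb)
  · change _ * A ≤ _
    refine le_trans (le_of_eq ?_) (mul_le_mul_of_nonneg_left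
      (show β / 4 * vl S.G (r \ S.st w) ≤ _ by nlinarith) (by positivity))
    field_simp
    ring
  have hH := h.fg_pos r w (toR y)
  rw [← mul_sub, mul_left_comm]
  refine mul_le_mul_of_nonneg_left ?_ (MS.wt_nonneg _ _)
  have t1 := one_le_th_zero (hH.smul (by linarith : 0 < lam)).inv
  have n0 := nest_nonneg (S.fg r w (toR y)) lam (g := fun x => ind (U (pr S w 0 2 (toR
    (asm S r w y x))) ∧ U (pr S w 0 3 (toR (asm S r w y x))) ∧ U (pr S w 1 2 (toR
      (asm S r w y x))) ∧ U (pr S w 1 3 (toR (asm S r w y x))))) fun _ => ind_nonneg _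
  have c0 : 0 ≤ (β / 2) ^ 4 / 256 * (A / vl S.G (r \ S.st w)) := by positivity
  by_cases h6 : Fib S r w (fun y => U (toR y)) (β / 2) y ∧ th (lam • S.fg r w (toR y))⁻¹ 0 ≤ 2
  · have h7 := quad_fib hH hl (le_trans (by
      exact_mod_cast Fintype.card_subtype_le _) hd) (by linarith) h6.2 _ h6.1
    rw [h5] at h7
    refine le_trans (mul_le_of_le_one_right c0 (by linarith [ind_le (Fib S r w
      (fun y => U (toR y)) (β / 2) y)])) (h7.trans (nest_mono hH (by linarith) (fun x => ?_)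
        (fun _ => abs_ind _) fun x => ?_))
    · rw [abs_mul, abs_mul, abs_mul]
      exact mul_le_one₀ (mul_le_one₀ (abs_ind _) (abs_nonneg _) (abs_ind _)) (by positivity)
        (mul_le_one₀ (abs_ind _) (abs_nonneg _) (abs_ind _))
    · have k : ∀ a c, U (toR (put (r ∩ S.st w) (x a + x c) y)) →
          U (pr S w a c (toR (asm S r w y x))) := fun a c =>
        hU _ _ fun j hj => pr_asm w y x a c hj
      refine (mul_le_mul (ind_mul_le (k 0 2) (k 0 3)) (ind_mul_le (k 1 2) (k 1 3))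
        (mul_nonneg (ind_nonneg _) (ind_nonneg _)) (ind_nonneg _)).trans
          ((ind_mul_le id id).trans (ind_mono fun a => ⟨a.1.1, a.1.2, a.2⟩))
  · refine le_trans (mul_nonpos_of_nonneg_of_nonpos c0 ?_) n0
    by_cases h7 : Fib S r w (fun y => U (toR y)) (β / 2) y
    · linarith [ind_le (Fib S r w (fun y => U (toR y)) (β / 2) y), not_le.1 fun a => h6 ⟨h7, a⟩]
    · rw [ind_neg h7]; linarith

theorem mg_mass (h : S.Ok) (hc : S.Cen) {Z W : ℝ} (hZ : 0 < Z) (hs : Mg S Z) {r : Finset ι}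
    (hr : Cls S r) (hW : 0 < W) (hW' : W ≤ Real.exp Z) :
    (nar S W).mass r ≤ 1 + Real.exp (-Z) :=
  (Smo.mono h hc (cls_univ S) hr hs (subset_univ _) le_rfl hW hW' le_rfl).mass h hc hr
    (Nat.one_le_iff_ne_zero.2 (Nat.ceil_pos.2 hZ).ne') hW.ne'

theorem exp_num {x c : ℝ} {n : ℕ} (h : (n : ℝ) ≤ x) (hc : c ≤ 2 ^ n) : c ≤ Real.exp x := by
  refine hc.trans (le_trans ?_ (Real.exp_le_exp.2 h))
  rw [← mul_one (n : ℝ), Real.exp_nat_mul]
  exact pow_le_pow_left₀ (by norm_num) (by linarith [Real.add_one_le_exp 1]) n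

theorem quad (V : Type) [Fintype V] [DecidableEq V] : QUAD V := by
  refine ⟨5, fun ι _ _ S B b U Y Z lam h hc hY hZ hb hU hd hl hl' hs hE => ?_⟩
  have hr := cls_fce S B
  have hY4 : 16 ≤ Y ^ 4 := le_trans (by norm_num) (pow_le_pow_left₀ (by norm_num) hY 4)
  have hY5 : 16 * Y ≤ Y ^ 5 := by rw [pow_succ]; nlinarith
  have hZ4 : 16 ≤ Z ^ 4 := le_trans (by norm_num) (pow_le_pow_left₀ (by norm_num) (hY.trans hZ) 4)
  have hZ5 : 16 * Z ≤ Z ^ 5 := by rw [pow_succ]; nlinarith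
  have hq := Real.one_le_sqrt.2 hl
  have hm := mg_mass h hc (by linarith) hs hr (W := √lam) (by linarith)
    ((Real.sqrt_le_iff.2 ⟨by linarith, by nlinarith⟩ : √lam ≤ lam).trans
      (hl'.trans (Real.exp_le_exp.2 (by linarith))))
  have h1 := quad_sum h hc hr b hl hd (Real.exp_pos (-Y)).le
    (Real.exp_le_one_iff.2 (by linarith)) (by
      have := exp_num (x := Z ^ 5 - Y) (c := 12) (n := 4) (by push_cast; linarith) (by norm_num)
      rw [show -Y = Z ^ 5 - Y + -Z ^ 5 by ring, Real.exp_add]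
      exact mul_le_mul_of_nonneg_right this (Real.exp_pos _).le) hm hU
    ((le_div_iff₀ (vl_pos h.pd _)).1 hE)
  rw [den, fce_b4 hb, le_div_iff₀ (vl_pos (ok_jt h b hl).pd _)]
  refine le_trans (mul_le_mul_of_nonneg_right ?_ (vl_pos (ok_jt h b hl).pd _).le) h1
  have := exp_num (x := Y ^ 5 - 5 * Y) (c := 2 ^ 14) (n := 14) (by push_cast; linarith) le_rfl
  rw [le_div_iff₀ (by positivity), ← Real.exp_nat_mul,
    show ((5 : ℕ) : ℝ) * -Y = -Y ^ 5 + (Y ^ 5 - 5 * Y) by push_cast; ring, Real.exp_add]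
  exact mul_le_mul_of_nonneg_left this (Real.exp_pos _).le

end

end Vale.Agent.P057QP
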