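import Vale.Agent.P057QP.Shear

/-!
Removal of the passengers of the displacement copy by one doubling.
-/

set_option linter.unusedSectionVars false

open Matrix Finset
open scoped Real
open Vale.Agent.P267.H775 Vale.Agent.P057G Vale.Agent.P057MA Vale.Agent.P057HU
open Vale.Agent.P057T1 Vale.Agent.P057IV
open Vale.Agent.P057PI (dup sg sc_sg Sc)

namespace Vale.Agent.P057QP

noncomputable section

section raw

variable {V ι : Type*} [DecidableEq V] [Fintype ι] [DecidableEq ι] {S : MS V ι}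

/-- functions of the frozen variables do not see the live variables -/
theorem raw_sum (h : S.Ok) (hc : S.Cen) {M : Finset ι} (hM : Sat S.G M) (L : Finset V) {η : ℝ}
    (hm : S.mass M ≤ 1 + η) {Γ : (ι → ℤ) → ℝ} (Γ0 : ∀ z, 0 ≤ Γ z) (Γ1 : ∀ z, Γ z ≤ 1)
    (e : ∀ x y, Γ (mix (S.sts L) x y) = Γ y) :
    (∑' y, S.wt (M \ S.sts L) y * Γ y) / vl S.G (M \ S.sts L) ≤
        (∑' z, S.wt M z * Γ z) / vl S.G M ∧
      (∑' z, S.wt M z * Γ z) / vl S.G M ≤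
        (∑' y, S.wt (M \ S.sts L) y * Γ y) / vl S.G (M \ S.sts L) + η := by
  have Γ2 : ∀ z, |Γ z| ≤ 1 := fun z => by rw [abs_of_nonneg (Γ0 z)]; exact Γ1 z
  have pA := vl_pos h.pd (M ∩ S.sts L)
  have pB := vl_pos h.pd (M \ S.sts L)
  have s1 : HasSum (fun y => S.wt (M \ S.sts L) y *
      ((S.frz L (toR y)).mass (M ∩ S.sts L) * Γ y))
      ((∑' z, S.wt M z * Γ z) / vl S.G (M ∩ S.sts L)) := by
    refine HasSum.congr_fun ((h.hasSum_frz_re M L (h.summable_re M Γ2)).div_const _) fun y => ?_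
    simp only [e]
    rw [tsum_mul_right, mul_div_assoc, mul_div_right_comm]; rfl
  have s0 := (h.summable_re (M \ S.sts L) Γ2).hasSum
  obtain ⟨d, hd, s2⟩ := frz_defect h hc hM L hm
  have m1 : ∀ y : ι → ℤ, 1 ≤ (S.frz L (toR y)).mass (M ∩ S.sts L) := fun y =>
    (h.frz L _).one_le_mass (hc.frz L _) (hM.inter (h.sat_sts L))
  rw [vl_split h.pd (h.sat_sts L) M, ← div_div]
  constructor
  · exact div_le_div_of_nonneg_right (hasSum_le (fun y => mul_le_mul_of_nonneg_left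
      (le_mul_of_one_le_left (Γ0 y) (m1 y)) (MS.wt_nonneg _ _)) s0 s1) pB.le
  · rw [div_add' _ _ _ pB.ne']
    refine div_le_div_of_nonneg_right ((hasSum_le (fun y => ?_) s1 (s0.add s2)).trans
      (by linarith)) pB.le
    rw [← mul_add]
    refine mul_le_mul_of_nonneg_left ?_ (MS.wt_nonneg _ _)
    nlinarith [mul_nonneg (sub_nonneg.2 (m1 y)) (sub_nonneg.2 (Γ1 y))]

end raw

variable {V ι : Type} [Fintype V] [DecidableEq V] [Fintype ι] [DecidableEq ι] {S : MS V ι}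

/-- the weight of the fibre over `b`, narrowed by `σ` -/
def kf (S : MS V ι) (b : V) (σ : ℝ) (a : Finset ι) (u : ι → ℝ) (x : ι → ℤ) : ℝ :=
  ((nar S σ).frz {b} u).wt (a ∩ S.st b) x

theorem mix_cq {α : Type*} {b : V} (c c' : Fin 4) (x ω : BI S.fc (0 : Fin 4) → α) (j : ι) :
    mix ((blow S 0).st (b, c)) x ω (cq S b c' j) =
      if j ∈ S.st b ∧ c' = c then x (cq S b c' j) else ω (cq S b c' j) := by
  simp only [mix, cq_st]

theorem mix_cq_ne {α : Type*} {b : V} {c c' : Fin 4} (h : c' ≠ c)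
    (x ω : BI S.fc (0 : Fin 4) → α) :
    mix ((blow S 0).st (b, c)) x ω ∘ cq S b c' = ω ∘ cq S b c' :=
  funext fun j => (mix_cq c c' x ω j).trans (if_neg fun a => h a.2)

theorem G_cq (h : S.Ok) (b : V) (lam : ℝ) (c : Fin 4) {i j : ι} (hi : i ∈ S.st b)
    (hj : j ∈ S.st b) : (jt S b lam).G (cq S b c i) (cq S b c j) =
      ((![1, 1, √lam, √lam] : Fin 4 → ℝ) c ^ 2 • S.G) i j := by
  change sg S 0 b _ _ * (blow S 0).G _ _ * sg S 0 b _ _ = _
  rw [sg_cq b _ c hi, sg_cq b _ c hj, G_cp h, Matrix.smul_apply, smul_eq_mul]; ring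

theorem vl_peel (h : S.Ok) (b : V) {lam : ℝ} (hl : 1 ≤ lam) {ρ : Fin 4 → Finset ι} {c : Fin 4}
    (hc : c ≠ 0) (hρ : ρ c ⊆ ρ 0) {σ : ℝ} (hσ : (![1, 1, √lam, √lam] : Fin 4 → ℝ) c = σ) :
    vl (jt S b lam).G (cps S b ρ) = vl (σ ^ 2 • S.G) (ρ c ∩ S.st b) *
      vl (jt S b lam).G (cps S b (Function.update ρ c ∅)) := by
  rw [(ok_jt h b hl).vl_st _ (b, c), ← cps_del b hc hρ, ← vl_image (cp_inj _ _ _)
    (G' := (jt S b lam).G) fun i hi j hj =>
      hσ ▸ G_cq h b lam c (mem_inter.1 hi).2 (mem_inter.1 hj).2, ← cps_st]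
  rfl

/-- summation over one copy first -/
theorem peel (h : S.Ok) (b : V) {lam : ℝ} (hl : 1 ≤ lam) {ρ : Fin 4 → Finset ι} {c : Fin 4}
    (hc : c ≠ 0) (hρ : ρ c ⊆ ρ 0) {σ : ℝ} (hσ : (![1, 1, √lam, √lam] : Fin 4 → ℝ) c = σ)
    {F : (BI S.fc (0 : Fin 4) → ℤ) → ℝ} {Φ : (BI S.fc (0 : Fin 4) → ℤ) → (ι → ℤ) → ℝ}
    (e : ∀ x ω, F (mix ((blow S 0).st (b, c)) x ω) = Φ ω (x ∘ cq S b c))
    (hF : Summable fun W => (jt S b lam).wt (cps S b ρ) W * F W) :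
    HasSum (fun ω => (jt S b lam).wt (cps S b (Function.update ρ c ∅)) ω *
        ∑' x, kf S b σ (ρ c) (toR (ω ∘ cq S b 0)) x * Φ ω x)
      (∑' W, (jt S b lam).wt (cps S b ρ) W * F W) := by
  have e1 : (jt S b lam).sts {(b, c)} = (blow S 0).st (b, c) := sts_single _
  have e2 : (nar S σ).sts {b} = S.st b := sts_single _
  refine HasSum.congr_fun ((ok_jt h b hl).hasSum_frz_re _ {(b, c)} hF) fun ω => ?_
  rw [e1, cps_del b hc hρ, cps_st]
  congr 1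
  simp only [e]
  refine (tsum_wt_image (S := (nar S σ).frz {b} (toR (ω ∘ cq S b 0)))
    (S' := (jt S b lam).frz {(b, c)} (toR ω)) (cp_inj _ _ _) (fun i hi j hj =>
      hσ ▸ G_cq h b lam c (mem_inter.1 hi).2 (mem_inter.1 hj).2) (fun z i hi => ?_) (Φ ω)).symm
  rw [MS.frz_p_pos _ _ (e1 ▸ (cq_st c c i).2 ⟨(mem_inter.1 hi).2, rfl⟩),
    MS.frz_p_pos _ _ (e2 ▸ (mem_inter.1 hi).2), e1, e2]
  refine (p_cp h _ _ i).trans (congrArg (fun u => S.p u i) (funext fun j => ?_))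
  refine (mix_cq c c z (toR ω) j).trans ?_
  by_cases hj : j ∈ S.st b
  · rw [if_pos ⟨hj, rfl⟩, mix_pos _ _ hj]; rfl
  · rw [if_neg fun a => hj a.1, mix_neg _ _ hj, cq_out hj c 0]; rfl

/-- a function of a raw point and a raw displacement -/
def Raw (S : MS V ι) (b : V) (r : Finset ι) (γ : (ι → ℤ) → (ι → ℤ) → ℝ) : Prop :=
  ∀ y y' x x', (∀ j ∈ r, y j = y' j) → (∀ j ∈ r, j ∈ S.st b → x j = x' j) → γ y x = γ y' x'

/-- the mean over the displacement -/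
def km (S : MS V ι) (b : V) (lam : ℝ) (γ : (ι → ℤ) → (ι → ℤ) → ℝ) (a : Finset ι) (y : ι → ℤ) :
    ℝ := ∑' x, kf S b √lam a (toR y) x * γ y x

theorem peel_km (h : S.Ok) (b : V) {lam : ℝ} (hl : 1 ≤ lam) {ρ : Fin 4 → Finset ι} {c : Fin 4}
    (hc : c ≠ 0) (hρ : ρ c ⊆ ρ 0) (hσ : (![1, 1, √lam, √lam] : Fin 4 → ℝ) c = √lam)
    {r : Finset ι} {γ : (ι → ℤ) → (ι → ℤ) → ℝ} (hγ : Raw S b r γ)
    {f : (BI S.fc (0 : Fin 4) → ℤ) → ℝ} (e : ∀ x ω, f (mix ((blow S 0).st (b, c)) x ω) = f ω)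
    (hF : Summable fun W => (jt S b lam).wt (cps S b ρ) W *
      (γ (W ∘ cq S b 0) (W ∘ cq S b c) * f W)) :
    HasSum (fun ω => (jt S b lam).wt (cps S b (Function.update ρ c ∅)) ω *
        (km S b lam γ (ρ c) (ω ∘ cq S b 0) * f ω))
      (∑' W, (jt S b lam).wt (cps S b ρ) W * (γ (W ∘ cq S b 0) (W ∘ cq S b c) * f W)) := by
  refine HasSum.congr_fun (peel h b hl hc hρ hσ (Φ := fun ω x => γ (ω ∘ cq S b 0) x * f ω)
    (fun x ω => ?_) hF) fun ω => ?_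
  · rw [e, mix_cq_ne hc.symm]
    exact congrArg (· * f ω) (hγ _ _ _ _ (fun _ _ => rfl) fun j _ hj =>
      (mix_cq c c x ω j).trans (if_pos ⟨hj, rfl⟩))
  · simp only [← mul_assoc, tsum_mul_right, km]

theorem core_num {e x y δ : ℝ} (he : |e| ≤ 1) (hδ : 0 < δ) :
    y * e ≤ x * e + (δ / 2 + (x * x - x * y - y * x + y * y) / (2 * δ)) := by
  have h1 : (y - x) * e ≤ |y - x| := (le_abs_self _).trans (by
    rw [abs_mul]; exact mul_le_of_le_one_right (abs_nonneg _) he)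
  have h2 : |y - x| - δ / 2 ≤ (x * x - x * y - y * x + y * y) / (2 * δ) := by
    rw [le_div_iff₀ (by positivity)]
    nlinarith [sq_nonneg (|y - x| - δ), sq_abs (y - x)]
  linarith

/-- the passengers of the displacement copy are removed -/
theorem core (h : S.Ok) (hc : S.Cen) (b : V) {lam : ℝ} (hl : 1 ≤ lam) {q : Finset ι}
    (hq : Cls S q) {L : Finset V} (hb : b ∉ L) {η δ : ℝ} (hδ : 0 < δ)
    (hm : ∀ M, Cls (jt S b lam) M → (jt S b lam).mass M ≤ 1 + η)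
    {γ : (ι → ℤ) → (ι → ℤ) → ℝ} (γ0 : ∀ y x, 0 ≤ γ y x) (γ1 : ∀ y x, γ y x ≤ 1)
    (hγ : Raw S b (q \ S.sts L) γ) {e : (ι → ℤ) → ℝ} (he : ∀ y, |e y| ≤ 1) :
    (∑' W, (jt S b lam).wt (cps S b ![q, ∅, q \ S.sts L, ∅]) W *
        (γ (W ∘ cq S b 0) (W ∘ cq S b 2) * e (W ∘ cq S b 0))) /
          vl (jt S b lam).G (cps S b ![q, ∅, q \ S.sts L, ∅]) ≤
      (∑' W, (jt S b lam).wt (cps S b ![q, ∅, q, ∅]) W *
        (γ (W ∘ cq S b 0) (W ∘ cq S b 2) * e (W ∘ cq S b 0))) /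
          vl (jt S b lam).G (cps S b ![q, ∅, q, ∅]) + (δ / 2 * (1 + η) + η / δ) := by
  have hJ := ok_jt h b hl
  have hr := cls_sdiff_sts hq L
  set r := q \ S.sts L with hr0
  have γ2 : ∀ y x, |γ y x| ≤ 1 := fun y x => by rw [abs_of_nonneg (γ0 y x)]; exact γ1 y x
  have u2 : ∀ a : Finset ι, Function.update ![q, ∅, a, ∅] 2 ∅ = ![q, ∅, ∅, ∅] := fun a => by
    funext c; fin_cases c <;> rfl
  have u3 : ∀ a a' : Finset ι, Function.update ![q, ∅, a, a'] 3 ∅ = ![q, ∅, a, ∅] :=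
    fun a a' => by funext c; fin_cases c <;> rfl
  let v : Finset ι → ℝ := fun a => vl (√lam ^ 2 • S.G) (a ∩ S.st b)
  have pv : ∀ a, 0 < v a := fun a =>
    vl_pos (h.pd.smul (pow_pos (Real.sqrt_pos.2 (by linarith)) 2)) _
  set V0 := vl (jt S b lam).G (cps S b ![q, ∅, ∅, ∅]) with hV0
  have p0 : 0 < V0 := vl_pos hJ.pd _
  have v2 : ∀ a ⊆ q, vl (jt S b lam).G (cps S b ![q, ∅, a, ∅]) = v a * V0 := fun a ha => by
    rw [vl_peel h b hl (c := 2) (by decide) ha rfl, u2]; rfl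
  have v3 : ∀ a ⊆ q, ∀ a' ⊆ q, vl (jt S b lam).G (cps S b ![q, ∅, a, a']) =
      v a' * (v a * V0) := fun a ha a' ha' => by
    rw [vl_peel h b hl (c := 3) (by decide) ha' rfl, u3, v2 a ha]; rfl
  have s1 : ∀ a ⊆ q, HasSum (fun ω => (jt S b lam).wt (cps S b ![q, ∅, ∅, ∅]) ω *
      (km S b lam γ a (ω ∘ cq S b 0) / v a * e (ω ∘ cq S b 0)))
      ((∑' W, (jt S b lam).wt (cps S b ![q, ∅, a, ∅]) W *
        (γ (W ∘ cq S b 0) (W ∘ cq S b 2) * e (W ∘ cq S b 0))) /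
          vl (jt S b lam).G (cps S b ![q, ∅, a, ∅]) * V0) := fun a ha => by
    have k := (peel_km h b hl (ρ := ![q, ∅, a, ∅]) (c := 2) (by decide) ha rfl hγ
      (f := fun W => e (W ∘ cq S b 0)) (fun x ω => by rw [mix_cq_ne (by decide)])
      (hJ.summable_re _ fun W => by
        rw [abs_mul]; exact mul_le_one₀ (γ2 _ _) (abs_nonneg _) (he _))).div_const (v a)
    rw [u2] at k
    rw [v2 a ha, ← div_div, div_mul_cancel₀ _ p0.ne']
    exact HasSum.congr_fun k fun ω => by rw [mul_div_assoc, mul_div_right_comm]; rfl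
  let Γ : (BI S.fc (0 : Fin 4) → ℤ) → ℝ := fun W =>
    γ (W ∘ cq S b 0) (W ∘ cq S b 3) * γ (W ∘ cq S b 0) (W ∘ cq S b 2)
  let c0 := (∑' W, (jt S b lam).wt (cps S b ![r, ∅, r, r]) W * Γ W) /
    vl (jt S b lam).G (cps S b ![r, ∅, r, r])
  have s2 : ∀ a, (a = q ∨ a = r) → ∀ a', (a' = q ∨ a' = r) → ∃ t, c0 ≤ t ∧ t ≤ c0 + η ∧
      HasSum (fun ω => (jt S b lam).wt (cps S b ![q, ∅, ∅, ∅]) ω *
        (km S b lam γ a (ω ∘ cq S b 0) / v a * (km S b lam γ a' (ω ∘ cq S b 0) / v a')))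
        (t * V0) := fun a ha a' ha' => by
    have k0 : ∀ a, (a = q ∨ a = r) → a ⊆ q ∧ Cls S a ∧ a \ S.sts L = r := by
      rintro a (rfl | rfl)
      exacts [⟨le_rfl, hq, rfl⟩, ⟨sdiff_subset, hr, sdiff_idem _ _⟩]
    obtain ⟨a1, a2, a3⟩ := k0 a ha
    obtain ⟨b1, b2, b3⟩ := k0 a' ha'
    have k1 := peel_km h b hl (ρ := ![q, ∅, a, a']) (c := 3) (by decide) b1 rfl hγ
      (f := fun W => γ (W ∘ cq S b 0) (W ∘ cq S b 2))
      (fun x ω => by rw [mix_cq_ne (by decide), mix_cq_ne (by decide)])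
      (hJ.summable_re _ fun W => by
        rw [abs_mul]; exact mul_le_one₀ (γ2 _ _) (abs_nonneg _) (γ2 _ _))
    rw [u3] at k1
    simp only [mul_comm (km S b lam γ _ _)] at k1
    have k2 := peel_km h b hl (ρ := ![q, ∅, a, ∅]) (c := 2) (by decide) a1 rfl hγ
      (f := fun W => km S b lam γ a' (W ∘ cq S b 0)) (fun x ω => by rw [mix_cq_ne (by decide)])
      k1.summable
    rw [u2] at k2
    have k3 := k2.tsum_eq.trans k1.tsum_eq
    have hM : Cls (jt S b lam) (cps S b ![q, ∅, a, a']) := cls_cps b lam fun c => by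
      fin_cases c
      exacts [hq, cls_empty S, a2, b2]
    have e1 : cps S b ![q, ∅, a, a'] \ (jt S b lam).sts (a4 L) = cps S b ![r, ∅, r, r] :=
      (cps_sdiff _ hb).trans (congrArg _ (funext fun c => by
        fin_cases c
        exacts [rfl, empty_sdiff _, a3, b3]))
    have k4 := raw_sum hJ (cen_jt hc b lam) (hM.sat hJ) (a4 L) (hm _ hM) (Γ := Γ)
      (fun _ => mul_nonneg (γ0 _ _) (γ0 _ _)) (fun _ => mul_le_one₀ (γ1 _ _) (γ0 _ _) (γ1 _ _))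
      fun x y => by
        have : ∀ c, ∀ j ∈ r, (mix ((jt S b lam).sts (a4 L)) x y ∘ cq S b c) j =
            (y ∘ cq S b c) j := fun c j hj =>
          mix_neg _ _ fun a => (mem_sdiff.1 hj).2 ((cq_sts hb c j).1 a)
        exact congrArg₂ (· * ·) (hγ _ _ _ _ (this 0) fun j hj _ => this 3 j hj)
          (hγ _ _ _ _ (this 0) fun j hj _ => this 2 j hj)
    rw [e1] at k4
    refine ⟨_, k4.1, k4.2, ?_⟩
    have k5 := k2.summable.hasSum.div_const (v a * v a')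
    rw [k3] at k5
    have := pv a
    have := pv a'
    rw [v3 a a1 a' b1, show ∀ t : ℝ, t / (v a' * (v a * V0)) * V0 = t / (v a * v a') from
      fun t => by field_simp]
    exact HasSum.congr_fun k5 fun ω => by rw [mul_div_assoc, mul_div_mul_comm]; rfl
  obtain ⟨t1, -, g1, w1⟩ := s2 q (Or.inl rfl) q (Or.inl rfl)
  obtain ⟨t2, g2, -, w2⟩ := s2 q (Or.inl rfl) r (Or.inr rfl)
  obtain ⟨t3, g3, -, w3⟩ := s2 r (Or.inr rfl) q (Or.inl rfl)
  obtain ⟨t4, -, g4, w4⟩ := s2 r (Or.inr rfl) r (Or.inr rfl)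
  have m0 := hm _ (cls_cps b lam (ρ := ![q, ∅, ∅, ∅]) fun c => by
    fin_cases c
    exacts [hq, cls_empty S, cls_empty S, cls_empty S])
  have k6 := hasSum_le (fun ω => ?_) (s1 r sdiff_subset) ((s1 q le_rfl).add
    (((hJ.hasSum_wt (cps S b ![q, ∅, ∅, ∅])).mul_right (δ / 2)).add
      ((((w1.sub w2).sub w3).add w4).div_const (2 * δ))))
  · refine le_of_mul_le_mul_right (k6.trans ?_) p0
    rw [add_mul, add_mul, ← hV0]
    have a1 : (t1 * V0 - t2 * V0 - t3 * V0 + t4 * V0) / (2 * δ) ≤ η / δ * V0 := by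
      rw [div_le_iff₀ (by positivity), show η / δ * V0 * (2 * δ) = 2 * η * V0 by field_simp]
      nlinarith
    nlinarith [mul_le_mul_of_nonneg_right m0 (mul_pos p0 hδ).le]
  · rw [← mul_sub, ← mul_sub, ← mul_add, mul_div_assoc, ← mul_add, ← mul_add]
    exact mul_le_mul_of_nonneg_left (core_num (he _) hδ) (MS.wt_nonneg _ _)

end

end Vale.Agent.P057QP
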