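import Vale.Agent.P057QP.Peel

/-!
The passengers survive the splitting of a point into centre and displacement.
-/

set_option linter.unusedSectionVars false

open Matrix Finset
open scoped Real
open Vale.Agent.P267.H775 Vale.Agent.P057G Vale.Agent.P057MA Vale.Agent.P057HU
open Vale.Agent.P057T1 Vale.Agent.P057IV
open Vale.Agent.P057PI (dup sg sc_sg Sc)

namespace Vale.Agent.P057QP

noncomputable section

variable {V ι : Type} [Fintype V] [DecidableEq V] [Fintype ι] [DecidableEq ι] {S : MS V ι}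

theorem fce_raw (S : MS V ι) {B L : Finset V} (h : Disjoint B L) :
    fce S (B ∪ L) \ S.sts L = fce S B := by
  ext i
  rw [mem_sdiff, mem_fce, mem_fce, MS.mem_sts]
  refine ⟨fun a v hv => (mem_union.1 (a.1 hv)).resolve_right fun x => a.2 ⟨v, x, hv⟩,
    fun a => ⟨a.trans subset_union_left, ?_⟩⟩
  rintro ⟨v, h1, h2⟩
  exact disjoint_left.1 h (a h2) h1

theorem ind_and (p q : Prop) : ind (p ∧ q) = ind p * ind q := by
  by_cases hp : p
  · rw [ind_pos hp, one_mul, eq_true hp, true_and]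
  · rw [ind_neg hp, zero_mul, ind_neg fun a => hp a.1]

theorem G_cq0 (h : S.Ok) (b : V) (lam : ℝ) (i j : ι) :
    (jt S b lam).G (cq S b 0 i) (cq S b 0 j) = S.G i j := by
  have e : ∀ i, sg S 0 b ![1, 1, √lam, √lam] (cq S b 0 i) = 1 := fun i => by
    by_cases hi : i ∈ S.st b
    · exact sg_cq b _ 0 hi
    · exact if_neg fun a => hi (S.mem_st.2 a)
  change sg S 0 b _ _ * (blow S 0).G _ _ * sg S 0 b _ _ = _
  rw [e, e, G_cp h, one_mul, mul_one]

theorem mix_a4 {α : Type*} {b : V} {L : Finset V} (hb : b ∉ L) (c : Fin 4)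
    (x ω : BI S.fc (0 : Fin 4) → α) : mix ((blow S 0).sts (a4 L)) x ω ∘ cq S b c =
      mix (S.sts L) (x ∘ cq S b c) (ω ∘ cq S b c) := by
  funext j
  simp only [Function.comp, mix, cq_sts hb]

/-- the passengers of the centre are summed first -/
theorem pd_sum (h : S.Ok) (b : V) {lam : ℝ} (hl : 1 ≤ lam) {B L : Finset V} (hd : Disjoint B L)
    (hb : b ∉ L) {γ : (ι → ℤ) → (ι → ℤ) → ℝ} (γ0 : ∀ y x, 0 ≤ γ y x) (γ1 : ∀ y x, γ y x ≤ 1)
    (hγ : Raw S b (fce S B) γ) (E : (ι → ℝ) → Prop) {β : ℝ}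
    (hp : ∀ W : BI S.fc (0 : Fin 4) → ℤ, γ (W ∘ cq S b 0) (W ∘ cq S b 2) ≠ 0 →
      β ≤ pd S B L E (toR (W ∘ cq S b 0))) :
    β * ((∑' W, (jt S b lam).wt (cps S b ![fce S B, ∅, fce S B, ∅]) W *
        γ (W ∘ cq S b 0) (W ∘ cq S b 2)) /
          vl (jt S b lam).G (cps S b ![fce S B, ∅, fce S B, ∅])) ≤
      (∑' W, (jt S b lam).wt (cps S b ![fce S (B ∪ L), ∅, fce S B, ∅]) W *
        (γ (W ∘ cq S b 0) (W ∘ cq S b 2) * ind (E (toR (W ∘ cq S b 0))))) /
          vl (jt S b lam).G (cps S b ![fce S (B ∪ L), ∅, fce S B, ∅]) := by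
  have hJ := ok_jt h b hl
  have er := fce_raw S hd
  have γ2 : ∀ y x, |γ y x| ≤ 1 := fun y x => by rw [abs_of_nonneg (γ0 y x)]; exact γ1 y x
  have e1 : cps S b ![fce S (B ∪ L), ∅, fce S B, ∅] \ (jt S b lam).sts (a4 L) =
      cps S b ![fce S B, ∅, fce S B, ∅] := (cps_sdiff _ hb).trans (congrArg _ (funext fun c => by
    fin_cases c
    exacts [er, empty_sdiff _, er ▸ sdiff_idem _ _, empty_sdiff _]))
  have e2 : cps S b ![fce S (B ∪ L), ∅, fce S B, ∅] ∩ (jt S b lam).sts (a4 L) =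
      (fce S (B ∪ L) ∩ S.sts L).image (cq S b 0) :=
    (cps_inter _ hb).trans ((congrArg _ (funext fun c => by
      fin_cases c
      exacts [rfl, empty_inter _, er ▸ sdiff_inter_self _ _, empty_inter _])).trans (cps_one b _))
  have s1 := hJ.hasSum_frz_re (cps S b ![fce S (B ∪ L), ∅, fce S B, ∅]) (a4 L)
    (F := fun W => γ (W ∘ cq S b 0) (W ∘ cq S b 2) * ind (E (toR (W ∘ cq S b 0))))
    (hJ.summable_re _ fun W => by
      rw [abs_mul]; exact mul_le_one₀ (γ2 _ _) (abs_nonneg _) (abs_ind _))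
  have pD := vl_pos h.pd (fce S (B ∪ L) ∩ S.sts L)
  rw [vl_split hJ.pd (hJ.sat_sts (a4 L)) (cps S b ![fce S (B ∪ L), ∅, fce S B, ∅]), e1, e2,
    vl_image (cp_inj _ _ _) fun i _ j _ => G_cq0 h b lam i j, ← div_div, ← mul_div_assoc]
  rw [e1, e2] at s1
  refine div_le_div_of_nonneg_right (hasSum_le (fun ω => ?_)
    ((hJ.summable_re _ fun W => γ2 _ _).hasSum.mul_left β) (s1.div_const _)) (vl_pos hJ.pd _).le
  rw [mul_left_comm, mul_div_assoc]
  refine mul_le_mul_of_nonneg_left ?_ (MS.wt_nonneg _ _)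
  have e3 : ∀ x, γ (mix ((jt S b lam).sts (a4 L)) x ω ∘ cq S b 0)
      (mix ((jt S b lam).sts (a4 L)) x ω ∘ cq S b 2) = γ (ω ∘ cq S b 0) (ω ∘ cq S b 2) :=
    fun x => by
      have : ∀ c, ∀ j ∈ fce S B, (mix ((jt S b lam).sts (a4 L)) x ω ∘ cq S b c) j =
          (ω ∘ cq S b c) j := fun c j hj =>
        mix_neg _ _ fun a => (mem_sdiff.1 (er ▸ hj)).2 ((cq_sts hb c j).1 a)
      exact hγ _ _ _ _ (this 0) fun j hj _ => this 2 j hj
  have e4 : ∀ x, toR (mix ((jt S b lam).sts (a4 L)) x ω ∘ cq S b 0) =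
      mix (S.sts L) (toR (x ∘ cq S b 0)) (toR (ω ∘ cq S b 0)) := fun x =>
    (congrArg toR (mix_a4 hb 0 x ω)).trans (toR_mix _ _ _)
  have e5 := tsum_wt_image (S := S.frz L (toR (ω ∘ cq S b 0)))
    (S' := (jt S b lam).frz (a4 L) (toR ω)) (q := fce S (B ∪ L) ∩ S.sts L) (cp_inj _ _ _)
    (fun i _ j _ => G_cq0 h b lam i j) (fun z i hi => by
      rw [MS.frz_p_pos (S := jt S b lam) _ _ ((cq_sts hb 0 i).2 (mem_inter.1 hi).2),
        MS.frz_p_pos _ _ (mem_inter.1 hi).2]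
      exact (p_cp h _ _ i).trans (congrArg (fun u => S.p u i) (mix_a4 hb 0 z (toR ω))))
    fun x => ind (E (mix (S.sts L) (toR x) (toR (ω ∘ cq S b 0))))
  simp only [smul_eq_mul] at e5
  simp only [e3, e4, mul_left_comm _ (γ _ _), tsum_mul_left]
  rw [e5, mul_div_assoc, mul_comm]
  by_cases h0 : γ (ω ∘ cq S b 0) (ω ∘ cq S b 2) = 0
  · rw [h0, zero_mul, zero_mul]
  · exact mul_le_mul_of_nonneg_left (hp ω h0) (γ0 _ _)

/-- the configuration with point `y` and displacement `x` -/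
def re (S : MS V ι) (b : V) (y x : ι → ℤ) (i : BI S.fc (0 : Fin 4)) : ℤ :=
  if i.1.2 b = 2 then x i.1.1 else y i.1.1 - if i.1.1 ∈ S.st b then x i.1.1 else 0

theorem cq_nw {b : V} {j : ι} (hj : j ∉ S.st b) (c : Fin 4) : (cq S b c j).1.2 b ≠ 2 := by
  rw [(cq S b c j).2 b fun a => hj (S.mem_st.2 a)]
  decide

theorem re_eq {b : V} {r : Finset ι} (W : BI S.fc (0 : Fin 4) → ℤ) {i : BI S.fc (0 : Fin 4)}
    (hi : i ∈ cps S b ![r, ∅, r, ∅]) :
    re S b (W ∘ cq S b 0) (W ∘ cq S b 2) i = sh S b (-1) W i := by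
  obtain ⟨c, j, h1, rfl⟩ := mem_cps.1 hi
  by_cases hj : j ∈ S.st b
  · have h2 : c = 0 ∨ c = 2 := by
      fin_cases c
      exacts [Or.inl rfl, absurd h1 (notMem_empty _), Or.inr rfl, absurd h1 (notMem_empty _)]
    rcases h2 with rfl | rfl
    · rw [re, if_neg (by rw [cq_w hj]; decide), sh_cq _ _ hj, neg_smul, one_smul,
        ← sub_eq_add_neg]
      exact congrArg _ (if_pos hj)
    · rw [re, if_pos (cq_w hj 2), sh_ne _ _ (Or.inl (by decide))]; rfl
  · rw [re, if_neg (cq_nw hj c), sh_ne _ _ (Or.inr hj), cq_out hj c 0]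
    exact (congrArg _ (if_neg hj)).trans (sub_zero _)

theorem re_congr {b : V} {r : Finset ι} {y y' x x' : ι → ℤ} (h1 : ∀ j ∈ r, y j = y' j)
    (h2 : ∀ j ∈ r, j ∈ S.st b → x j = x' j) {i : BI S.fc (0 : Fin 4)}
    (hi : i ∈ cps S b ![r, ∅, r, ∅]) : re S b y x i = re S b y' x' i := by
  obtain ⟨c, j, h3, rfl⟩ := mem_cps.1 hi
  have h4 : j ∈ r := by
    fin_cases c
    exacts [h3, absurd h3 (notMem_empty _), h3, absurd h3 (notMem_empty _)]
  change (if _ then x j else y j - if j ∈ S.st b then x j else 0) =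
    if _ then x' j else y' j - if j ∈ S.st b then x' j else 0
  by_cases hj : j ∈ S.st b
  · rw [h1 j h4, h2 j h4 hj]
  · rw [if_neg (cq_nw hj c), if_neg (cq_nw hj c), if_neg hj, if_neg hj, h1 j h4]

theorem ind_onP {κ : Type} [Fintype κ] [DecidableEq κ] {q : Finset κ} {g : (κ → ℝ) → Prop}
    (hg : OnP q g) {z z' : κ → ℤ} (e : ∀ i ∈ q, z i = z' i) :
    ind (g (toR z)) = ind (g (toR z')) :=
  congrArg ind (propext ⟨hg _ _ fun i hi => congrArg Int.cast (e i hi),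
    hg _ _ fun i hi => congrArg Int.cast (e i hi).symm⟩)

/-- the transfer of the passengers with explicit errors -/
theorem pas_sum (h : S.Ok) (hc : S.Cen) {B L : Finset V} {b : V} (hb : b ∈ B)
    (hd : Disjoint B L) {lam η δ θ β : ℝ} (hl : 1 ≤ lam) (hδ : 0 < δ) (hθ : 0 < θ)
    (hl' : 1 + 1 / θ ≤ θ * lam) (hβ : 0 ≤ β)
    (hm : ∀ M, Cls (jt S b lam) M → (jt S b lam).mass M ≤ 1 + η) (E : (ι → ℝ) → Prop)
    {g : (BI S.fc (0 : Fin 4) → ℝ) → Prop} (hg : OnP (fce (jt S b lam) (b2 B b)) g)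
    (hp : ∀ W, g (toR W) → β ≤ pd S B L E (pr S b 0 2 (toR W))) :
    β * den (jt S b lam) (b2 B b) g ≤
      den (jt S b lam) (b2 (B ∪ L) b) (fun W => g W ∧ E (pr S b 0 2 W)) +
        ((1 + β) * (η + 4 * Fintype.card ι * θ) + (δ / 2 * (1 + η) + η / δ)) := by
  have hJ := ok_jt h b hl
  have hbL : b ∉ L := disjoint_left.1 hd hb
  rw [fce_b2 hb] at hg
  rw [den, den, fce_b2 hb, fce_b2 (mem_union_left L hb)]
  let γ : (ι → ℤ) → (ι → ℤ) → ℝ := fun y x => ind (g (toR (re S b y x)))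
  have hγ : Raw S b (fce S B) γ := fun _ _ _ _ a a' => ind_onP hg fun _ hi => re_congr a a' hi
  have e1 : ∀ W, γ (W ∘ cq S b 0) (W ∘ cq S b 2) = ind (g (toR (sh S b (-1) W))) :=
    fun W => ind_onP hg fun _ hi => re_eq W hi
  have e2 : ∀ W, pr S b 0 2 (toR (sh S b (-1) W)) = toR (W ∘ cq S b 0) := fun W => by
    rw [toR_sh, pr_sh]; rfl
  have hρ : ∀ F, ∀ c, Cls S ((![fce S F, ∅, fce S F, ∅] : Fin 4 → Finset ι) c) := fun F c => by
    fin_cases c
    exacts [cls_fce S F, cls_empty S, cls_fce S F, cls_empty S]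
  have k1 := shear h hc b hl hθ hl' (hρ B) rfl (hm _ (cls_cps b lam (hρ B))) (n := 1) (by norm_num)
    (F := fun W => γ (W ∘ cq S b 0) (W ∘ cq S b 2)) (fun _ => ind_nonneg _) fun _ => ind_le _
  have k2 := pd_sum h b hl hd hbL (γ := γ) (fun _ _ => ind_nonneg _) (fun _ _ => ind_le _) hγ E
    (β := β) fun W a => e2 W ▸ hp _ (by
      by_contra a'
      exact a ((e1 W).trans (ind_neg a')))
  have k3 := core h hc b hl (cls_fce S (B ∪ L)) hbL hδ hm (γ := γ) (fun _ _ => ind_nonneg _)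
    (fun _ _ => ind_le _) (fce_raw S hd ▸ hγ) (e := fun y => ind (E (toR y))) fun _ => abs_ind _
  rw [fce_raw S hd] at k3
  have k4 := shear h hc b hl hθ hl' (hρ (B ∪ L)) rfl (hm _ (cls_cps b lam (hρ _))) (n := -1)
    (by norm_num) (F := fun W => ind (g (toR W) ∧ E (pr S b 0 2 (toR W))))
    (fun _ => ind_nonneg _) fun _ => ind_le _
  simp only [e2] at k4
  simp only [e1, sh_sh, add_neg_cancel, sh_zero] at k1
  simp only [e1, ← ind_and] at k2 k3
  rw [← div_le_div_iff_of_pos_right (vl_pos hJ.pd (cps S b ![fce S B, ∅, fce S B, ∅])),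
    add_div, mul_div_cancel_right₀ _ (vl_pos hJ.pd _).ne'] at k1
  rw [← div_le_div_iff_of_pos_right
    (vl_pos hJ.pd (cps S b ![fce S (B ∪ L), ∅, fce S (B ∪ L), ∅])),
    add_div, mul_div_cancel_right₀ _ (vl_pos hJ.pd _).ne'] at k4
  have k5 := mul_le_mul_of_nonneg_left k1 hβ
  rw [mul_add] at k5
  linarith

theorem pas_num {β η D : ℝ} (hβ : 0 < β) (hβ1 : β ≤ 1) (hη : η ≤ β ^ 4 / 64)
    (hD : D * β ≤ 1) : (1 + β) * (η + 4 * D * (β ^ 3 / 64)) +
      (β ^ 2 / 4 / 2 * (1 + η) + η / (β ^ 2 / 4)) ≤ 9 / 16 * β ^ 2 := by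
  have p2 : 0 < β ^ 2 := by positivity
  have a0 : β ^ 2 ≤ 1 := pow_le_one₀ hβ.le hβ1
  have a1 : η ≤ β ^ 2 / 64 := by nlinarith
  have a2 : 4 * D * (β ^ 3 / 64) ≤ β ^ 2 / 16 := by nlinarith
  have a3 : η / (β ^ 2 / 4) ≤ β ^ 2 / 16 := by
    rw [div_le_iff₀ (by positivity)]; nlinarith
  have a4 : (1 + β) * (η + 4 * D * (β ^ 3 / 64)) ≤ 2 * (β ^ 2 / 8) :=
    (mul_le_mul_of_nonneg_left (show _ ≤ β ^ 2 / 8 by linarith) (by linarith)).trans
      (mul_le_mul_of_nonneg_right (by linarith) (by positivity))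
  nlinarith

theorem pas (V : Type) [Fintype V] [DecidableEq V] : PAS V := by
  refine ⟨5, fun ι _ _ S B L b E g Y Z lam h hc hY hZ hl hl' hb hd _ hg hD hs hp hE => ?_⟩
  have hY4 : 16 ≤ Y ^ 4 := le_trans (by norm_num) (pow_le_pow_left₀ (by norm_num) hY 4)
  have hY5 : 16 * Y ≤ Y ^ 5 := by rw [pow_succ]; nlinarith
  have hZ4 : 16 ≤ Z ^ 4 := le_trans (by norm_num) (pow_le_pow_left₀ (by norm_num) (hY.trans hZ) 4)
  have hZ5 : 16 * Z ≤ Z ^ 5 := by rw [pow_succ]; nlinarith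
  have hl1 : 1 ≤ lam := (Real.one_le_exp (by linarith)).trans hl
  have hq := Real.one_le_sqrt.2 hl1
  have hβ := Real.exp_pos (-Y)
  have hβ1 : Real.exp (-Y) ≤ 1 := Real.exp_le_one_iff.2 (by linarith)
  have k := pas_sum h hc hb hd (δ := Real.exp (-Y) ^ 2 / 4) (θ := Real.exp (-Y) ^ 3 / 64) hl1
    (by positivity) (by positivity) ?_ hβ.le (fun M hM => mass_jt h hc b hl1
      ((Real.sqrt_le_iff.2 ⟨by linarith, by nlinarith⟩ : √lam ≤ lam).trans
        (hl'.trans (Real.exp_le_exp.2 (by linarith))))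
      (by rw [← Nat.cast_le (α := ℝ)]; push_cast; linarith [Nat.le_ceil (Z ^ 5)]) hs hM) E hg hp
  · have k1 := pas_num hβ hβ1 (η := Real.exp (-Z ^ 5)) (D := Fintype.card ι) (by
      have := exp_num (x := Z ^ 5 - 4 * Y) (c := 64) (n := 6) (by push_cast; linarith) (by norm_num)
      rw [le_div_iff₀ (by norm_num), ← Real.exp_nat_mul,
        show ((4 : ℕ) : ℝ) * -Y = -Z ^ 5 + (Z ^ 5 - 4 * Y) by push_cast; ring, Real.exp_add]
      exact mul_le_mul_of_nonneg_left this (Real.exp_pos _).le)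
      ((mul_le_mul_of_nonneg_right hD hβ.le).trans (by rw [← Real.exp_add]; simp))
    have k2 := mul_le_mul_of_nonneg_left hE hβ.le
    have k3 : Real.exp (-(2 * Y + 3)) * 8 ≤ Real.exp (-Y) ^ 2 := by
      rw [← Real.exp_nat_mul, show ((2 : ℕ) : ℝ) * -Y = -(2 * Y + 3) + 3 by push_cast; ring,
        Real.exp_add]
      exact mul_le_mul_of_nonneg_left (exp_num (n := 3) (by norm_num) (by norm_num))
        (Real.exp_pos _).le
    nlinarith [Real.exp_pos (-(2 * Y + 3))]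
  · have a1 : Real.exp (-Y) ^ 3 / 64 ≤ 1 := by linarith [pow_le_one₀ hβ.le hβ1 (n := 3)]
    have a2 : 2 ^ 13 ≤ Real.exp (-Y) ^ 6 * lam := by
      refine le_trans ?_ (mul_le_mul_of_nonneg_left hl (by positivity))
      rw [← Real.exp_nat_mul, ← Real.exp_add]
      exact exp_num (n := 13) (by push_cast; linarith) le_rfl
    have p : 0 < Real.exp (-Y) ^ 3 / 64 := by positivity
    rw [add_div' _ _ _ p.ne', div_le_iff₀ p]
    nlinarith

end

end Vale.Agent.P057QP
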