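import Vale.Agent.P057QP.Quad

/-!
Families of copies in the joint system and the shear of a centre by a narrow displacement.
-/

set_option linter.unusedSectionVars false

open Matrix Finset
open scoped Real
open Vale.Agent.P267.H775 Vale.Agent.P057G Vale.Agent.P057MA Vale.Agent.P057HU
open Vale.Agent.P057T1 Vale.Agent.P057IV
open Vale.Agent.P057PI (dup sg sc_sg Sc)

namespace Vale.Agent.P057QP

noncomputable section

section cmp

variable {V ι : Type*} [DecidableEq V] [Fintype ι] [DecidableEq ι] {S : MS V ι}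

theorem qq_add_le' {G : Matrix ι ι ℝ} (hG : G.PosSemidef) (u v : ι → ℝ) {δ : ℝ} (hδ : 0 < δ) :
    qq G (u + v) ≤ (1 + δ) * qq G u + (1 + 1 / δ) * qq G v := by
  have h1 := bb_sq_le hG u v
  have h2 := qq_nonneg hG u
  have h3 := qq_nonneg hG v
  have h4 : 2 * bb G u v * δ ≤ δ ^ 2 * qq G u + qq G v :=
    (le_abs_self _).trans (abs_le_of_sq_le_sq (by
      nlinarith [sq_nonneg (δ ^ 2 * qq G u - qq G v), mul_le_mul_of_nonneg_left h1 (sq_nonneg δ)])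
      (by positivity))
  rw [← le_div_iff₀ hδ] at h4
  rw [qq_add hG.1]
  have e : (δ ^ 2 * qq G u + qq G v) / δ = δ * qq G u + 1 / δ * qq G v := by field_simp
  linarith

/-- comparison of weighted sums along a nearly isometric bijection -/
theorem cmp_sum (h : S.Ok) (hc : S.Cen) {M : Finset ι} (hM : Sat S.G M)
    (φ : (ι → ℤ) ≃ (ι → ℤ)) {δ η : ℝ} (hδ : 0 ≤ δ) (hm : S.mass M ≤ 1 + η)
    (h0 : ∀ z, (∀ i, i ∉ M → z i = 0) → ∀ i, i ∉ M → φ z i = 0)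
    (h1 : ∀ z, ln2 S M (toR (φ z)) ≤ (1 + δ) * ln2 S M (toR z)) {F : (ι → ℤ) → ℝ}
    (F0 : ∀ z, 0 ≤ F z) (F1 : ∀ z, F z ≤ 1) :
    ∑' z, S.wt M z * F (φ z) ≤ ∑' z, S.wt M z * F z + (η + M.card * δ) * vl S.G M := by
  have k1 : 1 ≤ √(1 + δ) := Real.one_le_sqrt.2 (by linarith)
  have k2 : √(1 + δ) ^ 2 = 1 + δ := Real.sq_sqrt (by linarith)
  have h' := ok_nar h (W := √(1 + δ)) (by linarith)
  have F2 : ∀ z, |F z| ≤ 1 := fun z => by rw [abs_of_nonneg (F0 z)]; exact F1 z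
  have a1 : ∀ z, (nar S √(1 + δ)).wt M z ≤ S.wt M (φ z) := fun z => by
    rw [wt_eq, wt_eq]
    split_ifs with a b b
    · rw [ln2_nar, k2]
      exact Real.exp_le_exp.2 (neg_le_neg (mul_le_mul_of_nonneg_left (h1 z) Real.pi_pos.le))
    · exact absurd (h0 z a) b
    · exact (Real.exp_pos _).le
    · exact le_rfl
  have a2 : ∀ z, (nar S √(1 + δ)).wt M z ≤ S.wt M z := fun z => by
    rw [wt_eq, wt_eq]
    split_ifs with a
    · rw [ln2_nar, k2]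
      refine Real.exp_le_exp.2 (neg_le_neg (mul_le_mul_of_nonneg_left ?_ Real.pi_pos.le))
      nlinarith [ln2_nonneg (q := M) h (toR z)]
    · exact le_rfl
  have s1 : HasSum (fun z => S.wt M (φ z) * F (φ z)) (∑' z, S.wt M z * F z) :=
    φ.hasSum_iff.2 (h.summable_re M F2).hasSum
  have s2 := s1.add ((h.hasSum_wt M).sub (h'.hasSum_wt M))
  refine (hasSum_le (fun z => ?_) (h.summable_re M fun z => F2 (φ z)).hasSum s2).trans ?_
  · nlinarith [mul_nonneg (sub_nonneg.2 (a1 z)) (F0 (φ z)),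
      mul_nonneg (sub_nonneg.2 (a2 z)) (sub_nonneg.2 (F1 (φ z)))]
  have p0 := vl_pos h.pd M
  have m1 := h'.one_le_mass (cen_nar hc _) (q := M) fun i j hi hj => by
    change _ * S.G i j = 0
    rw [hM i j hi hj, mul_zero]
  have e : vl (nar S √(1 + δ)).G M = (√(1 + δ))⁻¹ ^ M.card * vl S.G M := by
    change vl (_ • S.G) M = _
    rw [k2, vl_smul (by linarith)]
  have b1 : 1 - δ ≤ (√(1 + δ))⁻¹ := by
    rw [← one_div, le_div_iff₀ (by linarith)]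
    nlinarith
  have b2 := one_add_mul_le_pow (a := (√(1 + δ))⁻¹ - 1)
    (by linarith [inv_pos.2 (one_pos.trans_le k1)]) M.card
  rw [add_sub_cancel] at b2
  have b3 : 1 - M.card * δ ≤ (√(1 + δ))⁻¹ ^ M.card := by
    nlinarith [(Nat.cast_nonneg M.card : (0 : ℝ) ≤ M.card)]
  have b4 := le_mul_of_one_le_left (vl_pos h'.pd M).le m1
  rw [e] at b4 ⊢
  nlinarith [mul_le_mul_of_nonneg_right hm p0.le, mul_le_mul_of_nonneg_right b3 p0.le]

end cmp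

variable {V ι : Type} [Fintype V] [DecidableEq V] [Fintype ι] [DecidableEq ι] {S : MS V ι}

/-- the copy `c` carries the indices of `ρ c` -/
def cps (S : MS V ι) (b : V) (ρ : Fin 4 → Finset ι) : Finset (BI S.fc (0 : Fin 4)) :=
  univ.biUnion fun c => (ρ c).image (cq S b c)

theorem mem_cps {b : V} {ρ : Fin 4 → Finset ι} {i : BI S.fc (0 : Fin 4)} :
    i ∈ cps S b ρ ↔ ∃ c, ∃ j ∈ ρ c, cq S b c j = i := by simp [cps]

theorem q4_eq (q : Finset ι) (b : V) : q4 S q b = cps S b fun _ => q := rfl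

theorem fce_b2 {B : Finset V} {b : V} (hb : b ∈ B) (lam : ℝ) :
    fce (jt S b lam) (b2 B b) = cps S b ![fce S B, ∅, fce S B, ∅] := by
  ext i
  rw [mem_fce_b2 hb, mem_cps]
  constructor
  · rintro ⟨j, hj, h | h⟩
    exacts [⟨0, j, hj, h⟩, ⟨2, j, hj, h⟩]
  · rintro ⟨c, j, hj, h⟩
    fin_cases c
    exacts [⟨j, hj, Or.inl h⟩, absurd hj (notMem_empty _), ⟨j, hj, Or.inr h⟩,
      absurd hj (notMem_empty _)]

theorem cps_st (b : V) (ρ : Fin 4 → Finset ι) (c : Fin 4) :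
    cps S b ρ ∩ (blow S 0).st (b, c) = (ρ c ∩ S.st b).image (cq S b c) := by
  ext i
  rw [mem_inter, mem_cps, mem_image]
  constructor
  · rintro ⟨⟨c', j, hj, rfl⟩, h⟩
    obtain ⟨h1, rfl⟩ := (cq_st c' c j).1 h
    exact ⟨j, mem_inter.2 ⟨hj, h1⟩, rfl⟩
  · rintro ⟨j, hj, rfl⟩
    exact ⟨⟨c, j, (mem_inter.1 hj).1, rfl⟩, (cq_st c c j).2 ⟨(mem_inter.1 hj).2, rfl⟩⟩

theorem cps_del (b : V) {ρ : Fin 4 → Finset ι} {c : Fin 4} (hc : c ≠ 0) (h : ρ c ⊆ ρ 0) :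
    cps S b ρ \ (blow S 0).st (b, c) = cps S b (Function.update ρ c ∅) := by
  ext i
  rw [mem_sdiff, mem_cps, mem_cps]
  constructor
  · rintro ⟨⟨c', j, hj, rfl⟩, h1⟩
    rw [cq_st] at h1
    by_cases e : c' = c
    · subst e
      exact ⟨0, j, by rw [Function.update_of_ne hc.symm]; exact h hj,
        cq_out (fun a => h1 ⟨a, rfl⟩) _ _⟩
    · exact ⟨c', j, by rwa [Function.update_of_ne e], rfl⟩
  · rintro ⟨c', j, hj, rfl⟩
    have e : c' ≠ c := by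
      rintro rfl
      rw [Function.update_self] at hj
      exact notMem_empty _ hj
    rw [Function.update_of_ne e] at hj
    exact ⟨⟨c', j, hj, rfl⟩, fun a => e ((cq_st c' c j).1 a).2⟩

theorem cps_sdiff {b : V} (ρ : Fin 4 → Finset ι) {A : Finset V} (hb : b ∉ A) :
    cps S b ρ \ (blow S 0).sts (a4 A) = cps S b fun c => ρ c \ S.sts A := by
  ext i
  rw [mem_sdiff, mem_cps, mem_cps]
  constructor
  · rintro ⟨⟨c, j, hj, rfl⟩, h⟩
    exact ⟨c, j, mem_sdiff.2 ⟨hj, by rwa [cq_sts hb] at h⟩, rfl⟩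
  · rintro ⟨c, j, hj, rfl⟩
    exact ⟨⟨c, j, (mem_sdiff.1 hj).1, rfl⟩, by rw [cq_sts hb]; exact (mem_sdiff.1 hj).2⟩

theorem cps_inter {b : V} (ρ : Fin 4 → Finset ι) {A : Finset V} (hb : b ∉ A) :
    cps S b ρ ∩ (blow S 0).sts (a4 A) = cps S b fun c => ρ c ∩ S.sts A := by
  ext i
  rw [mem_inter, mem_cps, mem_cps]
  constructor
  · rintro ⟨⟨c, j, hj, rfl⟩, h⟩
    exact ⟨c, j, mem_inter.2 ⟨hj, by rwa [cq_sts hb] at h⟩, rfl⟩
  · rintro ⟨c, j, hj, rfl⟩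
    exact ⟨⟨c, j, (mem_inter.1 hj).1, rfl⟩, by rw [cq_sts hb]; exact (mem_inter.1 hj).2⟩

theorem cps_one (b : V) (q : Finset ι) : cps S b ![q, ∅, ∅, ∅] = q.image (cq S b 0) := by
  ext i
  rw [mem_cps, mem_image]
  refine ⟨?_, fun ⟨j, hj, e⟩ => ⟨0, j, hj, e⟩⟩
  rintro ⟨c, j, hj, h⟩
  fin_cases c
  exacts [⟨j, hj, h⟩, absurd hj (notMem_empty _), absurd hj (notMem_empty _),
    absurd hj (notMem_empty _)]

theorem cls_empty (S : MS V ι) : Cls S ∅ :=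
  ⟨fun _ _ _ _ h => absurd h (notMem_empty _), fun _ h => absurd h (notMem_empty _)⟩

theorem cls_cps (b : V) (lam : ℝ) {ρ : Fin 4 → Finset ι} (h : ∀ c, Cls S (ρ c)) :
    Cls (jt S b lam) (cps S b ρ) :=
  ⟨fun i j a e hi => by
    obtain ⟨c, -, hc⟩ := mem_biUnion.1 hi
    exact mem_biUnion.2 ⟨c, mem_univ _, ((h c).image_cp 0 _).blk i j a e hc⟩,
  fun i hi j hj => by
    obtain ⟨c, -, hc⟩ := mem_biUnion.1 hi
    exact mem_biUnion.2 ⟨c, mem_univ _, ((h c).image_cp 0 _).dep i hc j hj⟩⟩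

/-- closed subsystems of the joint system have mass near one -/
theorem mass_jt (h : S.Ok) (hc : S.Cen) (b : V) {lam W η : ℝ} {N : ℕ} (hl : 1 ≤ lam)
    (hW : √lam ≤ W) (hN : 4 ≤ N) (hs : Smo S univ N W η) {M : Finset (BI S.fc (0 : Fin 4))}
    (hM : Cls (jt S b lam) M) : (jt S b lam).mass M ≤ 1 + η := by
  have hq := Real.one_le_sqrt.2 hl
  have k := sc_jt (S := S) ∅ b hl
  have hb := ok_blow h (0 : Fin 4)
  have hb' := cen_blow hc (0 : Fin 4)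
  refine (mass_gsc hb hb' k.fc k.one (W := W) (by linarith) (fun i => ?_) M).trans
    (le_trans (Cls.mass_mono (ok_nar hb (by linarith)) (cen_nar hb' W)
      (((cls_univ S).vld 0).nar W) ⟨hM.blk, hM.dep⟩ fun i _ => mem_vld.2 (mem_univ _))
      (hs (Fin 4) 0 (by simpa using hN)))
  unfold sg
  split_ifs
  · generalize i.1.2 b = c
    fin_cases c <;> simp <;> linarith
  · linarith

theorem sg_cq (b : V) (σ : Fin 4 → ℝ) (c : Fin 4) {j : ι} (hj : j ∈ S.st b) :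
    sg S 0 b σ (cq S b c j) = σ c :=
  (if_pos (S.mem_st.1 hj)).trans (by rw [cq_w hj])

theorem ln2_cq (h : S.Ok) (b : V) (lam : ℝ) (c : Fin 4) (q : Finset ι)
    (Z : BI S.fc (0 : Fin 4) → ℝ) : ln2 (jt S b lam) ((q ∩ S.st b).image (cq S b c)) Z =
      (![1, 1, √lam, √lam] : Fin 4 → ℝ) c ^ 2 * ln2 S (q ∩ S.st b) (Z ∘ cq S b c) := by
  rw [← ln2_image (S' := blow S 0) (cp_inj _ _ _) (fun i _ j _ => G_cp h _ i j)
    (fun z i _ => p_cp h _ z i) Z]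
  refine ln2_gsc (fun i hi => ?_) Z
  obtain ⟨j, hj, rfl⟩ := mem_image.1 hi
  exact sg_cq b _ c (mem_inter.1 hj).2

/-- the shear: `n` times the copy `2` is added to the copy `0` -/
def sh {α : Type*} [AddCommGroup α] (S : MS V ι) (b : V) (n : ℤ) (W : BI S.fc (0 : Fin 4) → α)
    (i : BI S.fc (0 : Fin 4)) : α :=
  W i + if i = cq S b 0 i.1.1 ∧ i.1.1 ∈ S.st b then n • W (cq S b 2 i.1.1) else 0

section sh

variable {α : Type*} [AddCommGroup α] {b : V} (n : ℤ) (W : BI S.fc (0 : Fin 4) → α)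

theorem sh_cq {j : ι} (hj : j ∈ S.st b) :
    sh S b n W (cq S b 0 j) = W (cq S b 0 j) + n • W (cq S b 2 j) := by
  rw [sh, if_pos ⟨rfl, hj⟩]; rfl

theorem sh_out {i : BI S.fc (0 : Fin 4)} (hi : i ∉ (blow S 0).st (b, 0)) :
    sh S b n W i = W i := by
  rw [sh, if_neg, add_zero]
  exact fun a => hi (a.1 ▸ (cq_st 0 0 _).2 ⟨a.2, rfl⟩)

theorem sh_ne {c : Fin 4} {j : ι} (h : c ≠ 0 ∨ j ∉ S.st b) :
    sh S b n W (cq S b c j) = W (cq S b c j) :=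
  sh_out n W fun a => h.elim (fun e => e ((cq_st c 0 j).1 a).2) fun e => e ((cq_st c 0 j).1 a).1

theorem sh_sh (m : ℤ) : sh S b n (sh S b m W) = sh S b (m + n) W := by
  funext i
  rw [sh, sh_ne m W (Or.inl (by decide)), sh, sh]
  split_ifs
  · rw [add_smul, add_assoc]
  · rw [add_zero]

theorem sh_zero : sh S b 0 W = W := by
  funext i; simp [sh]

theorem sh_one : sh S b 1 W ∘ cq S b 0 = pr S b 0 2 W := by
  funext j
  by_cases hj : j ∈ S.st b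
  · rw [Function.comp, sh_cq 1 W hj, one_smul, pr, mix_pos _ _ hj]
  · rw [Function.comp, sh_ne 1 W (Or.inr hj), pr, mix_neg _ _ hj]; rfl

theorem pr_sh : pr S b 0 2 (sh S b (-1) W) = W ∘ cq S b 0 := by
  rw [← sh_one, sh_sh, neg_add_cancel, sh_zero]

end sh

theorem toR_sh (b : V) (n : ℤ) (W : BI S.fc (0 : Fin 4) → ℤ) :
    toR (sh S b n W) = sh S b n (toR W) := by
  funext i
  rw [toR_apply, sh, sh]
  split_ifs <;> simp [toR_apply]

/-- the shear as a bijection -/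
def shE (S : MS V ι) (b : V) (n : ℤ) : (BI S.fc (0 : Fin 4) → ℤ) ≃ (BI S.fc (0 : Fin 4) → ℤ) :=
  ⟨sh S b n, sh S b (-n), fun W => by rw [sh_sh, add_neg_cancel, sh_zero],
    fun W => by rw [sh_sh, neg_add_cancel, sh_zero]⟩

theorem ln2_sh (h : S.Ok) (hc : S.Cen) (b : V) {lam δ : ℝ} (hl : 1 ≤ lam) (hδ : 0 < δ)
    (hd : 1 + 1 / δ ≤ δ * lam) {ρ : Fin 4 → Finset ι} (hρ : ∀ c, Cls S (ρ c)) (e : ρ 2 = ρ 0)
    {n : ℤ} (hn : n ^ 2 ≤ 1) (Z : BI S.fc (0 : Fin 4) → ℝ) :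
    ln2 (jt S b lam) (cps S b ρ) (sh S b n Z) ≤ (1 + δ) * ln2 (jt S b lam) (cps S b ρ) Z := by
  have hJ := ok_jt h b hl
  have hM := cls_cps b lam hρ
  have k0 : cps S b ρ ∩ (jt S b lam).st (b, 0) = _ := cps_st b ρ 0
  have k2 : cps S b ρ ∩ (jt S b lam).st (b, 2) = _ := cps_st b ρ 2
  have a0 : ∀ i ∈ cps S b ρ \ (jt S b lam).st (b, 0), sh S b n Z i = Z i := fun i hi =>
    sh_out n Z (mem_sdiff.1 hi).2
  have a1 : ln2 (jt S b lam) (cps S b ρ \ (jt S b lam).st (b, 0)) (sh S b n Z) =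
      ln2 (jt S b lam) (cps S b ρ \ (jt S b lam).st (b, 0)) Z := ln2_congr fun i hi => by
    rw [a0 i hi, cls_p hJ (hM.sdiff_st _) a0 hi]
  have a2 := P057T1.ln2_mono hJ ((hM.sat hJ).inter (hJ.sat_st (b, 2)))
    (s := cps S b ρ \ (jt S b lam).st (b, 0)) (fun i hi => mem_sdiff.2 ⟨(mem_inter.1 hi).1,
      fun a => absurd ((mem_fc_blow.1 ((blow S 0).mem_st.1 a)).2.symm.trans
        (mem_fc_blow.1 ((blow S 0).mem_st.1 (mem_inter.1 hi).2)).2)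
        (show (0 : Fin 4) ≠ 2 by decide)⟩) Z
  rw [k2, ln2_cq h, e, ln2_fg h hc (hρ 0) b (Z ∘ cq S b 0) (Z ∘ cq S b 2) fun j hj =>
    congrArg Z (cq_out (mem_sdiff.1 hj).2 2 0)] at a2
  rw [P057T1.ln2_split hJ (hJ.sat_st (b, 0)), P057T1.ln2_split hJ (hJ.sat_st (b, 0)) _ Z, a1, k0,
    ln2_cq h, ln2_cq h, ln2_fg h hc (hρ 0) b (Z ∘ cq S b 0) (sh S b n Z ∘ cq S b 0) fun j hj =>
      sh_ne n Z (Or.inr (mem_sdiff.1 hj).2),
    ln2_fg h hc (hρ 0) b (Z ∘ cq S b 0) (Z ∘ cq S b 0) fun _ _ => rfl]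
  have hH := (h.fg_pos (ρ 0) b (Z ∘ cq S b 0)).posSemidef
  have a3 : (fun i : ↥(ρ 0 ∩ S.st b) => (sh S b n Z ∘ cq S b 0) i) =
      (fun i : ↥(ρ 0 ∩ S.st b) => (Z ∘ cq S b 0) i) +
        (n : ℝ) • fun i : ↥(ρ 0 ∩ S.st b) => (Z ∘ cq S b 2) i := by
    funext i
    simp only [Function.comp, sh_cq n Z (mem_inter.1 i.2).2, Pi.add_apply, Pi.smul_apply,
      smul_eq_mul, zsmul_eq_mul]
  have a4 := qq_add_le' hH (fun i : ↥(ρ 0 ∩ S.st b) => (Z ∘ cq S b 0) i)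
    ((n : ℝ) • fun i : ↥(ρ 0 ∩ S.st b) => (Z ∘ cq S b 2) i) hδ
  rw [qq_smul] at a4
  rw [a3]
  have a5 : (n : ℝ) ^ 2 ≤ 1 := by exact_mod_cast hn
  have a6 := qq_nonneg hH fun i : ↥(ρ 0 ∩ S.st b) => (Z ∘ cq S b 2) i
  simp only [cons_val_zero, Matrix.cons_val, one_pow, one_mul,
    Real.sq_sqrt (show (0 : ℝ) ≤ lam by linarith)] at a2 ⊢
  have a7 := mul_le_mul hd (mul_le_of_le_one_left a6 a5) (by positivity) (by positivity)
  nlinarith [mul_le_mul_of_nonneg_left a2 hδ.le]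

/-- the shear nearly preserves the law of the joint system -/
theorem shear (h : S.Ok) (hc : S.Cen) (b : V) {lam δ η : ℝ} (hl : 1 ≤ lam) (hδ : 0 < δ)
    (hd : 1 + 1 / δ ≤ δ * lam) {ρ : Fin 4 → Finset ι} (hρ : ∀ c, Cls S (ρ c)) (e : ρ 2 = ρ 0)
    (hm : (jt S b lam).mass (cps S b ρ) ≤ 1 + η) {n : ℤ} (hn : n ^ 2 ≤ 1)
    {F : (BI S.fc (0 : Fin 4) → ℤ) → ℝ} (F0 : ∀ W, 0 ≤ F W) (F1 : ∀ W, F W ≤ 1) :
    ∑' W, (jt S b lam).wt (cps S b ρ) W * F (sh S b n W) ≤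
      ∑' W, (jt S b lam).wt (cps S b ρ) W * F W +
        (η + 4 * Fintype.card ι * δ) * vl (jt S b lam).G (cps S b ρ) := by
  have hJ := ok_jt h b hl
  refine (cmp_sum hJ (cen_jt hc b lam) ((cls_cps b lam hρ).sat hJ) (shE S b n) hδ.le hm
    (fun z hz i hi => ?_) (fun z => ?_) F0 F1).trans ?_
  · change sh S b n z i = 0
    rw [sh, hz i hi, zero_add]
    split_ifs with a
    · rw [hz, smul_zero]
      intro a2
      have a3 := mem_inter.2 ⟨a2, (cq_st 2 2 _).2 ⟨a.2, rfl⟩⟩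
      rw [cps_st, e] at a3
      obtain ⟨j, hj, a4⟩ := mem_image.1 a3
      exact hi (mem_cps.2 ⟨0, j, (mem_inter.1 hj).1, by rw [cp_inj _ _ _ a4]; exact a.1.symm⟩)
    · rfl
  · change ln2 _ _ (toR (sh S b n z)) ≤ _
    rw [toR_sh]
    exact ln2_sh h hc b hl hδ hd hρ e hn _
  · have : ((cps S b ρ).card : ℝ) ≤ 4 * Fintype.card ι := by
      have : (cps S b ρ).card ≤ 4 * Fintype.card ι := (card_biUnion_le_card_mul _ _ _
        fun c _ => card_image_le.trans (card_le_univ _)).trans (by simp)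
      exact_mod_cast this
    have p := (vl_pos hJ.pd (cps S b ρ)).le
    gcongr

end

end Vale.Agent.P057QP
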